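import Vale.Agent.P275MO.CDefs
import Vale.Agent.P275HK.Cal
import Vale.Agent.P275GC.St
import Vale.Agent.P275CT.Weyl

/-! The auxiliary data of the connections on the Kuranishi family. -/

set_option linter.unusedSectionVars false

open scoped Topology Matrix.Norms.Operator ContDiff ComplexConjugate
open Set Filter Metric Matrix Complex
open Vale.Agent.P281Z.Hm Vale.Agent.P275GC Vale.Agent.P275GC.At Vale.Agent.P275MO
open Vale.Agent.P275NA (Fm Cy Mn db dz)
open Vale.Agent.P275RR (ex SV Rc ex_O ex_not sv_ex rc_of cc_tw wb_tr)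
open Vale.Agent.P275HK (cd_mul cd_trace)

noncomputable section

namespace Vale.Agent.P275K0

variable {C : Type} [TopologicalSpace C] {A : At C} {n : ℕ} {g : Cy A (Mn n)} {i j i0 : Fin A.N}
  {w : ℂ}

theorem tf_add (X Y : Mn n) : tf (X + Y) = tf X + tf Y := by
  simp only [tf, trace_add, mul_add, add_smul]; abel

theorem tf_smul (c : ℂ) (X : Mn n) : tf (c • X) = c • tf X := by
  simp only [tf, trace_smul, smul_eq_mul, smul_sub, smul_smul, mul_left_comm]

theorem tr_tf (X : Mn n) : trace (tf X) = 0 := by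
  rcases n.eq_zero_or_pos with rfl | hn
  · simp [trace]
  have : (n : ℂ) ≠ 0 := Nat.cast_ne_zero.2 hn.ne'
  rw [tf, trace_sub, trace_smul, trace_one, Fintype.card_fin, smul_eq_mul, mul_comm,
    mul_inv_cancel_left₀ this, sub_self]

theorem tf_of {X : Mn n} (h : trace X = 0) : tf X = X := by
  rw [tf, h, mul_zero, zero_smul, sub_zero]

theorem tr_cj {P Q : Mn n} (h : Q * P = 1) (X : Mn n) : trace (P * X * Q) = trace X := by
  rw [trace_mul_comm, ← Matrix.mul_assoc, h, Matrix.one_mul]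

theorem tf_cj {P Q : Mn n} (h : Q * P = 1) (X : Mn n) : tf (P * X * Q) = P * tf X * Q := by
  rw [tf, tf, tr_cj h, Matrix.mul_sub, Matrix.sub_mul, Matrix.mul_smul, Matrix.smul_mul,
    Matrix.mul_one, mul_eq_one_comm.1 h]

theorem cd_tf {E : Type} [NormedAddCommGroup E] [NormedSpace ℝ E] {f : E → Mn n} {z : E}
    {N : WithTop ℕ∞} (hf : ContDiffAt ℝ N f z) : ContDiffAt ℝ N (fun x => tf (f x)) z :=
  hf.sub ((contDiffAt_const.mul (cd_trace hf)).smul contDiffAt_const)

theorem adC_apply (X : Mn n) : adC A g i j w X = g i j w * X * g j i (A.tr i j w) := rfl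

theorem adK_apply (X : Mn n) :
    adK A g i j w X = A.d i j w • (g i j w * X * g j i (A.tr i j w)) := rfl

theorem bar_apply (X : Mn n) : bar A (adK A g) i j w X =
    conj (A.d i j w) • A.d i j w • (g i j w * X * g j i (A.tr i j w)) := rfl

theorem cc_adC (hg : A.Cc g) : A.Cc (adC A g) where
  hol i j := ((ContinuousLinearMap.mulLeftRight ℂ (Mn n)).differentiable.comp_differentiableOn
    (hg.hol i j)).clm_apply ((hg.hol j i).comp (A.hol i j) fun _ h => tr_mem h)
  one i z h := ContinuousLinearMap.ext fun X => by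
    rw [adC_apply, tr_self h, hg.one i z h, Matrix.one_mul, Matrix.mul_one]; rfl
  mul i j k z h h' := ContinuousLinearMap.ext fun X => by
    show _ = adC A g i j z (adC A g j k (A.tr i j z) X)
    rw [adC_apply, adC_apply, adC_apply, tr_tr h, hg.mul k j i _ (tr_O h' h) (tr_mem h'), tr_tr h',
      hg.mul i j k z h h']
    simp only [Matrix.mul_assoc]

theorem cc_adK (hg : A.Cc g) : A.Cc (adK A g) := cc_tw (G := adC A g) A.cc_d (cc_adC hg)

theorem esec_iff (hg : A.Cc g) (m : Cy A ℂ) (u : Fm A (Mn n)) : ESec A g m u ↔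
    ∀ i j, ∀ w ∈ A.O i j, u i w = m i j w • adC A g i j w (u j (A.tr i j w)) :=
  forall₄_congr fun i j w h => by
    rw [adC_apply]
    refine ⟨fun e => ?_, fun e => ?_⟩
    · rw [← Matrix.smul_mul, ← e, Matrix.mul_assoc, hg.inv h, Matrix.mul_one]
    · rw [e, Matrix.smul_mul, Matrix.mul_assoc, hg.inv' h, Matrix.mul_one]

theorem ex_cu (ξ0 : ℂ) {ε : ℝ} (hε : 0 < ε) : ∃ χ0 χ, Cu ξ0 ε χ0 χ := by
  obtain ⟨a, a1, -, -, a2, a3⟩ := P275CT.ex_cutC ξ0 (r := ε / 4) (R := ε / 2) (by linarith)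
    (by linarith)
  obtain ⟨b, b1, -, -, b2, b3⟩ := P275CT.ex_cutC ξ0 (r := ε / 2) (R := ε) (by linarith)
    (by linarith)
  exact ⟨a, b, a1, b1, fun w h => a2 w (ball_subset_closedBall h),
    fun w h => image_eq_zero_of_notMem_tsupport (a3 ▸ h), b2,
    fun w h => image_eq_zero_of_notMem_tsupport (b3 ▸ h)⟩

theorem der_cc {k : Fin A.N} (hg : A.Cc g) (h : w ∈ A.O i j) (h' : w ∈ A.O i k) :
    deriv (g i k) w * g k i (A.tr i k w) = deriv (g i j) w * g j i (A.tr i j w) +
      adK A g i j w (deriv (g j k) (A.tr i j w) * g k j (A.tr j k (A.tr i j w))) := by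
  have e : g i k =ᶠ[𝓝 w] fun y => g i j y * g j k (A.tr i j y) := by
    filter_upwards [O_nhds h, O_nhds h'] with y a b using hg.mul i j k y a b
  have d := ((hg.an h).differentiableAt.hasDerivAt).mul
    ((hg.an (tr_O h h')).differentiableAt.hasDerivAt.scomp w (has_tr h))
  have e' : deriv (g i k) w = _ := (d.congr_of_eventuallyEq e).deriv
  rw [e', adK_apply,
    hg.mul k j i _ (tr_O h' h) (tr_mem h'), tr_tr h', tr_tr h]
  have := hg.inv (tr_O h h')
  rw [tr_tr h] at this
  simp only [Function.comp, Matrix.add_mul, Matrix.mul_assoc, Matrix.mul_smul, Matrix.smul_mul]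
  rw [← Matrix.mul_assoc (g j k _), this, Matrix.one_mul]
  rfl

theorem adK_tf (hg : A.Cc g) (h : w ∈ A.O i j) (X : Mn n) :
    tf (adK A g i j w X) = adK A g i j w (tf X) := by
  rw [adK_apply, adK_apply, tf_smul, tf_cj (hg.inv' h)]

theorem tr_dz {f : ℂ → Mn n} (hf : DifferentiableAt ℝ f w) (h : ∀ᶠ y in 𝓝 w, trace (f y) = 0) :
    trace (dz f w) = 0 ∧ trace (db f w) = 0 :=
  ⟨by rw [dz, ← wd_trace hf, wd_congr (g := fun _ => 0) h, wd_const],
    by rw [db, ← wb_trace hf, wb_congr (g := fun _ => 0) h, wb_const]⟩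

theorem dz_bar (hg : A.Cc g) {s : Fm A (Mn n)} (hs : A.Sm ∞ s)
    (e : ESec A g (fun i j w => conj (A.d i j w)) s) (h : w ∈ A.O i j) :
    dz (s i) w = conj (A.d i j w) • (deriv (g i j) w * s j (A.tr i j w) * g j i (A.tr i j w) +
      adK A g i j w (dz (s j) (A.tr i j w))) - s i w * (deriv (g i j) w * g j i (A.tr i j w)) := by
  have a := (hg.an h).differentiableAt
  have b := hs.df (by simp) h.1 i
  have c := hs.df (by simp) (tr_ball h) j
  have c' : DifferentiableAt ℝ (fun y => s j (A.tr i j y)) w :=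
    c.comp w ((df_tr h).restrictScalars ℝ)
  have d := (an_d h).differentiableAt
  have e1 := wd_congr (eventually_of_mem (O_nhds h) (e i j)) 1
  rw [wd_mul b (a.restrictScalars ℝ), wd_smul (df_conj (d.restrictScalars ℝ))
    (df_mul (a.restrictScalars ℝ) c'), wd_conj (d.restrictScalars ℝ), wb_hol d, map_zero, zero_smul,
    zero_add, wd_mul (a.restrictScalars ℝ) c', show wd 1 (g i j) w = _ from dz_hol a,
    show wd 1 (fun y => s j (A.tr i j y)) w = _ from dz_comp c (df_tr h)] at e1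
  have := congrArg (· * g j i (A.tr i j w)) e1
  simp only [Matrix.add_mul, Matrix.mul_assoc, hg.inv h, Matrix.mul_one, Matrix.smul_mul,
    Matrix.mul_smul] at this
  rw [adK_apply, eq_sub_iff_add_eq, Matrix.mul_assoc, Matrix.mul_assoc]
  exact this

theorem cur_ok (hg : A.Cc g) {A0 s : Fm A (Mn n)} (R : Ref A g A0) (hs : A.Sm ∞ s)
    (e : ESec A g (fun i j w => conj (A.d i j w)) s)
    (t : ∀ i, ∀ w ∈ ball (0 : ℂ) A.R, (s i w).trace = 0) : A.Sm ∞ (cur A A0 s) ∧
      SV A (bar A (adK A g)) (cur A A0 s) ∧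
      ∀ i, ∀ w ∈ ball (0 : ℂ) A.R, (cur A A0 s i w).trace = 0 := by
  refine ⟨fun i w h => (((P275FR.sm_db (R.sm.at h i)).add ((cd_mul (hs.at h i) (R.sm.at h i)).sub
    (cd_mul (R.sm.at h i) (hs.at h i)))).sub (P275FR.sm_dz (hs.at h i))).contDiffWithinAt,
    fun i j w h => ?_, fun i w h => ?_⟩
  · have c := R.sm.df (by simp) (tr_ball h) j
    have a : AnalyticAt ℂ (fun y => tf (deriv (g i j) y * g j i (A.tr i j y))) w := by
      have := an_mul (hg.an h).deriv ((hg.an (tr_mem h)).comp (an_tr h))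
      exact this.sub ((analyticAt_const.mul (an_trace this)).smul analyticAt_const)
    have e1 : db (A0 i) w = bar A (adK A g) i j w (db (A0 j) (A.tr i j w)) := by
      refine (wb_congr (eventually_of_mem (O_nhds h) (R.law i j)) 1).trans ((wb_sub
        (P275RR.df_app (((cc_adK hg).an h).differentiableAt.restrictScalars ℝ)
          (c.comp w ((df_tr h).restrictScalars ℝ))) (a.differentiableAt.restrictScalars ℝ)
        1).trans ?_)
      rw [wb_hol a.differentiableAt, sub_zero]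
      exact wb_tr (cc_adK hg) h c
    have k : ∀ X : Mn n, g j i (A.tr i j w) * (g i j w * X) = X := fun X => by
      rw [← Matrix.mul_assoc, hg.inv' h, Matrix.one_mul]
    rw [cur, cur, e1, dz_bar hg hs e h, R.law i j w h, (esec_iff hg _ _).1 e i j w h, tf]
    simp only [bar_apply, adK_apply, adC_apply, Matrix.mul_add, Matrix.add_mul, Matrix.mul_sub,
      Matrix.sub_mul, Matrix.mul_smul, Matrix.smul_mul, Matrix.mul_assoc, k, Matrix.mul_one,
      Matrix.one_mul]
    module
  · have b := isOpen_ball.mem_nhds h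
    rw [cur, trace_sub, trace_add, trace_sub, trace_mul_comm, sub_self,
      (tr_dz (R.sm.df (by simp) h i) (eventually_of_mem b (R.tr i))).2,
      (tr_dz (hs.df (by simp) h i) (eventually_of_mem b (t i))).1, add_zero, sub_self]

variable [T2Space C]

theorem ex_ref (hg : A.Cc g) : ∃ A0, Ref A g A0 := by
  refine ⟨fun i w => ∑ k, A.φ k i w • -tf (deriv (g i k) w * g k i (A.tr i k w)), fun i =>
    ContDiffOn.sum fun k _ => cd_φ_smul (m := ⊤) fun w h => (cd_tf (cd_an (an_mul (hg.an h).deriv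
      ((hg.an (tr_mem h)).comp (an_tr h))))).neg, fun i w _ => ?_, fun i j w h => ?_⟩
  · simp only [trace_sum, trace_smul, trace_neg, tr_tf, neg_zero, smul_zero, Finset.sum_const_zero]
  · rw [← one_smul ℝ (tf (deriv (g i j) w * _)), ← sum_φ (A := A) i w, Finset.sum_smul, map_sum,
      ← Finset.sum_sub_distrib]
    refine Finset.sum_congr rfl fun k _ => ?_
    rw [← fn_φ k i j w h, ContinuousLinearMap.map_smul_of_tower]
    by_cases a : A.φ k i w = 0
    · simp only [a, zero_smul, sub_self]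
    · rw [der_cc hg h (O_of_φ h.1 a).1, tf_add, adK_tf hg h, map_neg, ← smul_sub]
      congr 1; abel

theorem cont_ex {P F : Type} [TopologicalSpace P] [NormedAddCommGroup F] [NormedSpace ℝ F]
    [NormedSpace ℂ F] [IsScalarTower ℝ ℂ F] {G : Cy A (F →L[ℂ] F)} (hG : Rc A G) {K : Set ℂ}
    (hK : IsCompact K) (hR : K ⊆ ball 0 A.R) {f : P → ℂ → F} (h0 : ∀ p y, y ∉ K → f p y = 0)
    {p : P × ℂ} (hp : p.2 ∈ ball (0 : ℂ) A.R) (hf : p.2 ∈ A.O i j →
      ContinuousAt (fun q : P × ℂ => f q.1 q.2) (p.1, A.tr i j p.2)) :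
    ContinuousAt (fun q : P × ℂ => ex A G j (f q.1) i q.2) p := by
  by_cases a : p.2 ∈ A.O i j
  · have c : ContinuousAt (fun q : P × ℂ => G i j q.2 (f q.1 (A.tr i j q.2))) p :=
      ((hG.sm i j _ a).continuousAt.comp continuousAt_snd).clm_apply ((hf a).comp_of_eq
        (continuousAt_fst.prodMk ((an_tr a).continuousAt.comp continuousAt_snd)) rfl)
    exact c.congr ((continuousAt_snd.eventually (O_nhds a)).mono fun q hq => (ex_O hq).symm)
  · refine (continuousAt_const (y := (0 : F))).congr ((continuousAt_snd.eventually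
      (ev_off hK hR hp (off_of_not hR hp a))).mono fun q hq => ?_)
    by_cases b : q.2 ∈ A.O i j
    · simp only [ex_O b, h0 _ _ fun c => hq ⟨_, c, symm_tr b⟩, map_zero]
    · exact (ex_not b).symm

omit [T2Space C] in
theorem df_ex {G : Cy A (CL (Mn n) (Mn n))} {c : ℂ → ℂ} {p : ℂ × Mn n}
    (h : w ∈ A.O i j → A.tr i j w = p.1 → c (A.tr i j w) = 0) :
    DifferentiableAt ℂ (fun q : ℂ × Mn n => ex A G j (fun y => (c y / (y - q.1)) • q.2) i w) p := by
  by_cases a : w ∈ A.O i j
  · simp only [ex_O a]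
    refine (G i j w).differentiableAt.comp p (DifferentiableAt.fun_smul ?_ differentiableAt_snd)
    by_cases b : A.tr i j w = p.1
    · simp only [h a b, zero_div]; exact differentiableAt_const _
    · simp only [div_eq_mul_inv]
      have : DifferentiableAt ℂ (fun q : ℂ × Mn n => A.tr i j w - q.1) p :=
        differentiableAt_fst.const_sub _
      exact (this.fun_inv (sub_ne_zero.2 b)).const_mul _
  · simp only [ex_not a]; exact differentiableAt_const _

omit [T2Space C] in
theorem tr_ne {ξ : ℂ} (h : w ∈ off A ((A.e i0).symm ξ) i) (a : w ∈ A.O i i0) :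
    A.tr i i0 w ≠ ξ := fun e => h.2 (by rw [← e, symm_tr a])

omit [T2Space C] in
theorem Cu.db_out {ξ0 : ℂ} {ε : ℝ} {χ0 χ : ℂ → ℂ} (c : Cu ξ0 ε χ0 χ) {y : ℂ}
    (h : y ∉ closedBall ξ0 (ε / 2)) : db χ0 y = 0 :=
  (wb_congr (g := fun _ => 0) (eventually_of_mem (isClosed_closedBall.isOpen_compl.mem_nhds h)
    c.z0) 1).trans (wb_const _ _ _)

omit [T2Space C] in
theorem Cu.db_in {ξ0 : ℂ} {ε : ℝ} {χ0 χ : ℂ → ℂ} (c : Cu ξ0 ε χ0 χ) {y : ℂ}
    (h : y ∈ ball ξ0 (ε / 4)) : db χ0 y = 0 :=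
  (wb_congr (g := fun _ => 1) (eventually_of_mem (isOpen_ball.mem_nhds h) c.o0) 1).trans
    (wb_const _ _ _)

theorem cb_sub {ξ0 : ℂ} {ε δ : ℝ} (h : ‖ξ0‖ + ε < 1) (hδ : δ ≤ ε) :
    closedBall ξ0 δ ⊆ ball (0 : ℂ) A.R := fun y hy => mem_of_le (by
  have := norm_add_le ξ0 (y - ξ0)
  rw [add_sub_cancel] at this
  rw [mem_closedBall, dist_eq_norm] at hy
  linarith)

theorem cp0 (A : At C) (n : ℕ) : CP0 n A := by
  intro g i0 ξ0 ε hg hε h1
  have rK := rc_of (cc_adK hg)
  have K1 := cb_sub (A := A) h1 le_rfl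
  have K2 := cb_sub (A := A) h1 (half_le_self hε.le)
  refine ⟨cc_adC hg, cc_adK hg, esec_iff hg, ex_cu ξ0 hε, ex_ref hg,
    fun A0 s R hs e t => cur_ok hg R hs e t, fun χ0 χ c => ⟨fun i => contDiffOn_const.sub
      (sm_ext (isCompact_closedBall ξ0 ε) K1 c.s1.contDiffOn (fun z _ => c.z1 z) i0 i),
    (fn_pl (A.ext i0 χ)).map (1 - ·), fun i ξ X w _ => ?_, fun i w h b => ?_, ?_, fun ξ X =>
    ⟨sv_ex rK, sv_ex rK.bar, fun t i w => ?_⟩, fun i p hp => ?_, fun i p hp => ?_,
    fun i w p hp => df_ex fun _ e => Cu.db_in c (e ▸ hp),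
    fun i p _ w hw => df_ex fun a e => absurd e (tr_ne hw a)⟩⟩
  · by_cases a : w ∈ A.O i i0
    · rw [P275MO.cf, pp, ex_O a, ext_tr a]
      by_cases b : A.tr i i0 w ∈ closedBall ξ0 (ε / 2)
      · rw [c.o1 _ b, sub_self, zero_smul]
      · rw [c.z0 _ b, zero_div, zero_smul, map_zero, smul_zero]
    · rw [pp, ex_not a, smul_zero]
  · rw [P275MO.cf, ext_tr h, c.o1 _ (ball_subset_closedBall b), sub_self]
  · have p := norm_nonneg ξ0
    have e : ‖(((‖ξ0‖ + ε + 1) / 2 : ℝ) : ℂ)‖ = (‖ξ0‖ + ε + 1) / 2 := by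
      rw [norm_real, Real.norm_of_nonneg (by linarith)]
    refine ⟨((‖ξ0‖ + ε + 1) / 2 : ℝ), mem_ball_zero_iff.2 (by linarith), ?_⟩
    filter_upwards [isOpen_ball.mem_nhds (mem_of_le (A := A) (e.trans_le (by linarith))),
      (isClosed_closedBall (x := ξ0) (ε := ε)).isOpen_compl.mem_nhds fun h => by
        rw [mem_closedBall, dist_eq_norm] at h
        linarith [norm_sub_norm_le (((‖ξ0‖ + ε + 1) / 2 : ℝ) : ℂ) ξ0]] with y a b
    rw [P275MO.cf, ext_symm a, c.z1 y b, sub_zero]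
  · by_cases a : w ∈ A.O i i0
    · rw [pp, dp, ex_O a, ex_O a, bar_apply, adK_apply]
      simp only [trace_smul, tr_cj (hg.inv' a), t, smul_zero, and_self]
    · rw [pp, dp, ex_not a, ex_not a, trace_zero, and_self]
  · refine (cont_ex (f := fun (q : ℂ × Mn n) y => (db χ0 y / (y - q.1)) • q.2) rK.bar
      (isCompact_closedBall _ _) K2 (fun q y h => by rw [Cu.db_out c h, zero_div, zero_smul]) hp.2
      fun a => ContinuousAt.fun_smul ?_ continuousAt_fst.snd).continuousWithinAt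
    by_cases b : A.tr i i0 p.2 ∈ ball ξ0 (ε / 4)
    · exact (continuousAt_const (y := (0 : ℂ))).congr ((continuousAt_snd.eventually
        (isOpen_ball.mem_nhds b)).mono fun q hq => by simp only [Cu.db_in c hq, zero_div])
    · exact ((P275FR.sm_db c.s0.contDiffAt).continuousAt.comp continuousAt_snd).div
        (continuousAt_snd.sub continuousAt_fst.fst) (sub_ne_zero.2 fun e => b (mem_of_eq_of_mem e hp.1))
  · exact (cont_ex (f := fun (q : ℂ × Mn n) y => (χ0 y / (y - q.1)) • q.2) rK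
      (isCompact_closedBall _ _) K2 (fun q y h => by rw [c.z0 y h, zero_div, zero_smul]) hp.2.1
      fun a => ((c.s0.continuous.continuousAt.comp continuousAt_snd).div
        (continuousAt_snd.sub continuousAt_fst.fst) (sub_ne_zero.2 (tr_ne hp.2 a))).smul
          continuousAt_fst.snd).continuousWithinAt

end Vale.Agent.P275K0
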